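import Vale.Agent.P297.H72.Z2.TDefs

/-!
The general numerical Godeaux surface with torsion of order two: the forms of the curve over `y` in
the tricanonical coordinates, and their relation with the double solid `T_l`.
-/

set_option linter.unusedSectionVars false
set_option linter.unusedVariables false

namespace Vale.Agent.P297.Z2

namespace Dat

section field

variable {k : Type*} [Field k] (D : Dat k)

def i0 : k := D.A / D.U

def i2 : k := D.B / D.V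

/-- the right side of the second equation -/
def k2 : k := D.e + D.i2 * D.U ^ 2 + D.i0 * D.V ^ 2

/-- the right side of the third equation -/
def k3 : k := D.m + D.i0 * D.c * D.V + D.i2 * D.a * D.U - (D.i0 * D.V + D.i2 * D.U) ^ 2

/-- the quadratic form of the second equation -/
def w2 (p r s t : k) : k :=
  s * p - r * t + (1 + D.i0 + D.i2) * p * r - D.i2 * r ^ 2 - D.i0 * p ^ 2

/-- the quadratic form of the third equation -/
def w3 (p r s t : k) : k := (s + 2 * D.i0 * r) * (t - 2 * D.i2 * p) + (D.i0 * p + D.i2 * r) ^ 2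

/-- the cubic form -/
def wC (p r s t : k) : k := t * r ^ 2 - s * p ^ 2

/-- the linear form -/
def wL (p r s t : k) : k := D.U ^ 2 * t - D.V ^ 2 * s - D.a * D.U * p - D.c * D.V * r

/-- the quadric through the curve -/
def wQ (p r s t : k) : k := D.k3 * D.w2 p r s t - D.k2 * D.w3 p r s t

/-- the cubic through the curve -/
def wS (p r s t : k) : k := D.k2 * wC p r s t + D.w2 p r s t * D.wL p r s t

/-- the cubic surface of `T_l` -/
def wK (l p r s t : k) : k :=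
  (D.k3 - l * D.k2) * wC p r s t + (D.w3 p r s t - l * D.w2 p r s t) * D.wL p r s t

theorem k2_wK (l p r s t : k) : D.k2 * D.wK l p r s t =
    (D.k3 - l * D.k2) * D.wS p r s t - D.wL p r s t * D.wQ p r s t := by
  unfold wK wS wQ
  ring

theorem wK_eq (l p r s t : k) (h : D.wK l p r s t = 0) :
    (D.k3 - l * D.k2) * D.wS p r s t = D.wL p r s t * D.wQ p r s t := by
  have h1 := D.k2_wK l p r s t
  rw [h, mul_zero] at h1
  linear_combination -h1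

variable {D}

theorem UV_k2 (hU : D.U ≠ 0) (hV : D.V ≠ 0) : D.U * D.V * D.k2 = D.g := by
  unfold k2 i0 i2 g
  field_simp
  ring

theorem UV_kl (hU : D.U ≠ 0) (hV : D.V ≠ 0) (l : k) :
    D.U ^ 2 * D.V ^ 2 * (D.k3 - l * D.k2) = -D.h l := by
  unfold k3 k2 i0 i2 h g
  field_simp
  ring

variable [CharZero k] {l p r S v0 v1 v2 v3 : k}

/-- the point of the double solid and the point of the space over `y` -/
structure Cor (D : Dat k) (l p r S v0 v1 v2 v3 : k) : Prop where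
  E : D.E p = v0
  F : D.F r = v1
  s : D.sN l p r S = 2 * D.U * D.V * v2
  t : D.tN l p r S = 2 * D.U * D.V * v3

/-- `L(v) = h / (U V)`. -/
theorem Cor.L (hc : Cor D l p r S v0 v1 v2 v3) (hU : D.U ≠ 0) (hV : D.V ≠ 0) :
    D.U * D.V * D.wL v0 v1 v2 v3 = D.h l := by
  have h1 := D.L_eq l p r S
  rw [hc.E, hc.F, hc.s, hc.t] at h1
  have h2 : (2 : k) ≠ 0 := two_ne_zero
  apply mul_left_cancel₀ h2
  rw [← h1]
  unfold wL
  ring

/-- **The equation of the surface.** -/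
theorem Cor.Phi (hc : Cor D l p r S v0 v1 v2 v3) (hU : D.U ≠ 0) (hV : D.V ≠ 0) :
    D.Phi l p r S = 2 * D.U * D.V * D.wS v0 v1 v2 v3 := by
  have h1 := D.Phi_eq l p r S
  have h0 := hc.L hU hV
  have hK : D.Kc l p r S = 2 * D.U * D.V * wC v0 v1 v2 v3 := by
    unfold Kc wC
    rw [hc.E, hc.F, hc.s, hc.t]
    ring
  rw [hK, hc.E, hc.F, hc.s, hc.t] at h1
  have hg := UV_k2 hU hV
  apply mul_left_cancel₀ (mul_ne_zero hU hV)
  rw [h1]
  have e2 : D.U * D.V * D.w2 v0 v1 v2 v3 = D.U * D.V * (v2 * v0 - v1 * v3 + v0 * v1) +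
      (D.A * D.V + D.B * D.U) * v0 * v1 - D.B * D.U * v1 ^ 2 - D.A * D.V * v0 ^ 2 := by
    unfold w2 i0 i2
    field_simp
    ring
  unfold wS
  rw [← hg, ← h0]
  linear_combination -2 * (D.U * D.V * D.wL v0 v1 v2 v3) * e2

/-- **The equation of the double solid.** -/
theorem Cor.B (hc : Cor D l p r S v0 v1 v2 v3) (hU : D.U ≠ 0) (hV : D.V ≠ 0) :
    D.h l * (S ^ 2 - D.Bq l p r) = 4 * D.U * D.V * D.wK l v0 v1 v2 v3 := by
  have h3 := D.cubic_eq l p r S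
  have h0 := hc.L hU hV
  have hK : D.Kc l p r S = 2 * D.U * D.V * wC v0 v1 v2 v3 := by
    unfold Kc wC
    rw [hc.E, hc.F, hc.s, hc.t]
    ring
  unfold q0 at h3
  rw [hK, hc.E, hc.F, hc.s, hc.t] at h3
  have hk := UV_kl (D := D) hU hV l
  have e2 : D.U * D.V * D.w2 v0 v1 v2 v3 = D.U * D.V * (v2 * v0 - v1 * v3 + v0 * v1) +
      (D.A * D.V + D.B * D.U) * v0 * v1 - D.B * D.U * v1 ^ 2 - D.A * D.V * v0 ^ 2 := by
    unfold w2 i0 i2
    field_simp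
    ring
  have e3 : D.U ^ 2 * D.V ^ 2 * D.w3 v0 v1 v2 v3 = D.U * D.V * (D.U * v2 + 2 * D.A * v1) *
      (D.V * v3 - 2 * D.B * v0) + (D.A * D.V * v0 + D.B * D.U * v1) ^ 2 := by
    unfold w3 i0 i2
    field_simp
  apply mul_left_cancel₀ (pow_ne_zero 2 (mul_ne_zero hU hV))
  unfold wK
  linear_combination D.h l * h3 - 4 * D.U * D.V * wC v0 v1 v2 v3 * hk -
    4 * D.U ^ 2 * D.V ^ 2 * (D.w3 v0 v1 v2 v3 - l * D.w2 v0 v1 v2 v3) * h0 - 4 * D.h l * e3 +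
    4 * l * D.U * D.V * D.h l * e2

theorem Cor.of (hU : D.U ≠ 0) (hV : D.V ≠ 0) (hE : D.E p = v0) (hF : D.F r = v1)
    (hs : D.sN l p r S = 2 * D.U * D.V * v2) (hL : D.U * D.V * D.wL v0 v1 v2 v3 = D.h l) :
    Cor D l p r S v0 v1 v2 v3 := by
  refine ⟨hE, hF, hs, ?_⟩
  have h1 := D.L_eq l p r S
  rw [hE, hF, hs] at h1
  apply mul_left_cancel₀ (pow_ne_zero 2 hU)
  unfold wL at hL
  linear_combination h1 - 2 * hL

theorem Cor.Kc_eq {κ σ τ μ : k} (hc : Cor D l p r S v0 v1 v2 v3) (hU : D.U ≠ 0) (hV : D.V ≠ 0)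
    (h0 : v0 = μ) (h1 : v1 = μ * κ) (h2 : v2 = μ * σ) (h3 : v3 = μ * τ) :
    D.Kc l p r S = 2 * D.U * D.V * (μ ^ 3 * wC 1 κ σ τ) := by
  subst h0 h1 h2 h3
  unfold Kc wC
  rw [hc.E, hc.F, hc.s, hc.t]
  ring

/-- **The coordinates of the point of the surface.** -/
theorem Cor.toX {x κ σ τ μ : k} (hc : Cor D l p r S v0 v1 v2 v3) (hU : D.U ≠ 0) (hV : D.V ≠ 0)
    (hμ : μ ≠ 0) (h0 : v0 = μ) (h1 : v1 = μ * κ) (h2 : v2 = μ * σ) (h3 : v3 = μ * τ)
    (hC : wC 1 κ σ τ ≠ 0) (hx : x * wC 1 κ σ τ = -D.wL 1 κ σ τ) :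
    D.X l p r S = x ∧ D.kap p r = κ ∧ D.sg l p r S = σ ∧ D.ta l p r S = τ := by
  subst h0 h1 h2 h3
  have hL := hc.L hU hV
  have e1 : D.kap p r = κ := by
    unfold kap
    rw [hc.E, hc.F, mul_div_cancel_left₀ _ hμ]
  have e2 : D.sg l p r S = σ := by
    unfold sg
    rw [hc.E, hc.s]
    have h2 : 2 * D.U * D.V * v0 ≠ 0 :=
      mul_ne_zero (mul_ne_zero (mul_ne_zero two_ne_zero hU) hV) hμ
    rw [div_eq_iff h2]
    ring
  have e3 : D.ta l p r S = τ := by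
    unfold ta
    rw [hc.E, hc.t]
    have h2 : 2 * D.U * D.V * v0 ≠ 0 :=
      mul_ne_zero (mul_ne_zero (mul_ne_zero two_ne_zero hU) hV) hμ
    rw [div_eq_iff h2]
    ring
  refine ⟨?_, e1, e2, e3⟩
  have hK : D.Kc l p r S = 2 * D.U * D.V * (v0 ^ 3 * wC 1 κ σ τ) := by
    unfold Kc wC
    rw [hc.E, hc.F, hc.s, hc.t]
    ring
  have hW : D.wL v0 (v0 * κ) (v0 * σ) (v0 * τ) = v0 * D.wL 1 κ σ τ := by
    unfold wL
    ring
  rw [hW] at hL
  unfold X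
  rw [hK, hc.E, div_eq_iff (mul_ne_zero (mul_ne_zero (mul_ne_zero two_ne_zero hU) hV)
    (mul_ne_zero (pow_ne_zero 3 hμ) hC)), ← hL]
  linear_combination 2 * D.U * D.V * v0 ^ 3 * (-hx)

section line

variable {x1 x2 x3 g0 g1 g2 g3 : k}

/-- the polar form of the quadric -/
def wb (D : Dat k) (x0 x1 x2 x3 g0 g1 g2 g3 : k) : k :=
  D.wQ (x0 + g0) (x1 + g1) (x2 + g2) (x3 + g3) - D.wQ x0 x1 x2 x3 - D.wQ g0 g1 g2 g3

theorem wQ_line (D : Dat k) (al be x0 x1 x2 x3 g0 g1 g2 g3 : k) :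
    D.wQ (al * x0 + be * g0) (al * x1 + be * g1) (al * x2 + be * g2) (al * x3 + be * g3) =
      al ^ 2 * D.wQ x0 x1 x2 x3 + al * be * D.wb x0 x1 x2 x3 g0 g1 g2 g3 +
        be ^ 2 * D.wQ g0 g1 g2 g3 := by
  unfold wb wQ w2 w3
  ring

theorem wL_line (D : Dat k) (al be x0 x1 x2 x3 g0 g1 g2 g3 : k) :
    D.wL (al * x0 + be * g0) (al * x1 + be * g1) (al * x2 + be * g2) (al * x3 + be * g3) =
      al * D.wL x0 x1 x2 x3 + be * D.wL g0 g1 g2 g3 := by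
  unfold wL
  ring

/-- a line of the cubic surface through the point `x` of the curve and a point `γ` with
`L(γ) = 0` -/
structure Lin (D : Dat k) (l x1 x2 x3 g0 g1 g2 g3 : k) : Prop where
  line : ∀ al be : k, D.wK l (al * 1 + be * g0) (al * x1 + be * g1) (al * x2 + be * g2)
    (al * x3 + be * g3) = 0
  Q : D.wQ 1 x1 x2 x3 = 0
  gL : D.wL g0 g1 g2 g3 = 0
  xL : D.wL 1 x1 x2 x3 ≠ 0
  gQ : D.wQ g0 g1 g2 g3 ≠ 0

theorem Lin.eq (hl : Lin D l x1 x2 x3 g0 g1 g2 g3) (al be : k) :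
    (D.k3 - l * D.k2) * D.wS (al * 1 + be * g0) (al * x1 + be * g1) (al * x2 + be * g2)
      (al * x3 + be * g3) = al * D.wL 1 x1 x2 x3 *
      (al * be * D.wb 1 x1 x2 x3 g0 g1 g2 g3 + be ^ 2 * D.wQ g0 g1 g2 g3) := by
  rw [D.wK_eq l _ _ _ _ (hl.line al be), wQ_line, wL_line, hl.Q, hl.gL]
  ring

/-- The coefficient of the cubic form does not vanish. -/
theorem Lin.kl_ne (hl : Lin D l x1 x2 x3 g0 g1 g2 g3) : D.k3 - l * D.k2 ≠ 0 := by
  intro h
  have h1 := hl.eq 1 1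
  have h2 := hl.eq 1 (-1)
  rw [h, zero_mul] at h1 h2
  have h3 : 2 * (D.wL 1 x1 x2 x3 * D.wQ g0 g1 g2 g3) = 0 := by
    linear_combination -h1 - h2
  exact mul_ne_zero two_ne_zero (mul_ne_zero hl.xL hl.gQ) h3

theorem Lin.h_ne (hl : Lin D l x1 x2 x3 g0 g1 g2 g3) (hU : D.U ≠ 0) (hV : D.V ≠ 0) :
    D.h l ≠ 0 := by
  have h1 := UV_kl (D := D) hU hV l
  have h2 : D.U ^ 2 * D.V ^ 2 * (D.k3 - l * D.k2) ≠ 0 :=
    mul_ne_zero (mul_ne_zero (pow_ne_zero 2 hU) (pow_ne_zero 2 hV)) hl.kl_ne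
  rw [h1] at h2
  exact neg_ne_zero.1 h2

/-- The line does not meet `p = r = 0` in `γ`. -/
theorem Lin.g_ne (hl : Lin D l x1 x2 x3 g0 g1 g2 g3) : g0 ≠ 0 ∨ g1 ≠ 0 := by
  by_contra hcon
  push Not at hcon
  obtain ⟨rfl, rfl⟩ := hcon
  have h0 := hl.eq 1 0
  have h1 := hl.eq 1 1
  have h2 := hl.eq 1 (-1)
  have hg := hl.gL
  have h3 : D.wS (1 * 1 + 1 * 0) (1 * x1 + 1 * 0) (1 * x2 + 1 * g2) (1 * x3 + 1 * g3) +
      D.wS (1 * 1 + -1 * 0) (1 * x1 + -1 * 0) (1 * x2 + -1 * g2) (1 * x3 + -1 * g3) =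
      2 * D.wS (1 * 1 + 0 * 0) (1 * x1 + 0 * 0) (1 * x2 + 0 * g2) (1 * x3 + 0 * g3) := by
    unfold wS wC
    unfold wL at hg ⊢
    unfold w2
    linear_combination 2 * (g2 - x1 * g3) * hg
  have h4 : 2 * (D.wL 1 x1 x2 x3 * D.wQ 0 0 g2 g3) = 0 := by
    linear_combination (D.k3 - l * D.k2) * h3 - h1 - h2 + 2 * h0
  exact mul_ne_zero two_ne_zero (mul_ne_zero hl.xL hl.gQ) h4

/-- **The equation of the surface on the line**, in the normalisation `L(v) = h / (U V)`. -/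
theorem Lin.Phi (hl : Lin D l x1 x2 x3 g0 g1 g2 g3) (hU : D.U ≠ 0) (hV : D.V ≠ 0) {al be : k}
    (hc : Cor D l p r S (al * 1 + be * g0) (al * x1 + be * g1) (al * x2 + be * g2)
      (al * x3 + be * g3)) :
    D.Phi l p r S = -2 * D.U ^ 2 * D.V ^ 2 *
      (al * be * D.wb 1 x1 x2 x3 g0 g1 g2 g3 + be ^ 2 * D.wQ g0 g1 g2 g3) := by
  rw [hc.Phi hU hV]
  have h1 := hl.eq al be
  have h2 := hc.L hU hV
  rw [wL_line, hl.gL] at h2
  have h3 := UV_kl (D := D) hU hV l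
  apply mul_left_cancel₀ (hl.h_ne hU hV)
  generalize D.wS (al * 1 + be * g0) (al * x1 + be * g1) (al * x2 + be * g2)
    (al * x3 + be * g3) = W at *
  generalize al * be * D.wb 1 x1 x2 x3 g0 g1 g2 g3 + be ^ 2 * D.wQ g0 g1 g2 g3 = Q at *
  linear_combination -2 * D.U ^ 3 * D.V ^ 3 * h1 + 2 * D.U * D.V * W * h3 +
    -2 * D.U ^ 2 * D.V ^ 2 * Q * h2

/-- The double solid on the line. -/
theorem Lin.B (hl : Lin D l x1 x2 x3 g0 g1 g2 g3) (hU : D.U ≠ 0) (hV : D.V ≠ 0) {al be : k}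
    (hc : Cor D l p r S (al * 1 + be * g0) (al * x1 + be * g1) (al * x2 + be * g2)
      (al * x3 + be * g3)) : D.Bq l p r = S ^ 2 := by
  have h1 := hc.B hU hV
  rw [hl.line, mul_zero] at h1
  exact (sub_eq_zero.1 ((mul_eq_zero.1 h1).resolve_left (hl.h_ne hU hV))).symm

end line

end field

end Dat

end Vale.Agent.P297.Z2
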