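import Vale.Agent.P297.H251.Z2.Alg
import Vale.Agent.P297.H424.Z2.Iface
import Vale.Agent.P297.H55.Z2.Nrm

/-!
The general numerical Godeaux surface with torsion of order two: the chords are lines of the double
solids over `y`.
-/

set_option linter.unusedSectionVars false
set_option linter.unusedVariables false

open Polynomial

namespace Vale.Agent.P297.H251.Z2

open Vale.Agent.P297 Vale.Agent.P297.Gen Vale.Agent.P297.H72
open Vale.Agent.P297.H160.Z2Irr Vale.Agent.P297.Z2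

section

variable {N : Type} [Field N] [Algebra ℂ N] {P : Par}

theorem gen_mul_wC {w : Fin 5 → N} (h : GenS P w) :
    w 0 * Dat.wC 1 (w 1) (w 3) (w 4) = -(dat P (w 2)).wL 1 (w 1) (w 3) (w 4) := by
  have h1 := h.e1
  unfold E1 at h1
  unfold Dat.wC Dat.wL
  simp only [dat]
  linear_combination h1

theorem gen_mul_w2 {w : Fin 5 → N} (h : GenS P w) :
    w 0 * (dat P (w 2)).w2 1 (w 1) (w 3) (w 4) = (dat P (w 2)).k2 := by
  have h1 := h.e2
  unfold E2 at h1
  unfold Dat.w2 Dat.k2 Dat.i0 Dat.i2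
  simp only [dat]
  linear_combination h1

theorem gen_mul_w3 {w : Fin 5 → N} (h : GenS P w) :
    w 0 * (dat P (w 2)).w3 1 (w 1) (w 3) (w 4) = (dat P (w 2)).k3 := by
  have h1 := h.e3
  unfold E3 at h1
  unfold Dat.w3 Dat.k3 Dat.i0 Dat.i2
  simp only [dat]
  linear_combination h1

theorem gen_wQ {w : Fin 5 → N} (h : GenS P w) :
    (dat P (w 2)).wQ 1 (w 1) (w 3) (w 4) = 0 := by
  apply mul_left_cancel₀ h.nx
  unfold Dat.wQ
  linear_combination (dat P (w 2)).k3 * gen_mul_w2 h - (dat P (w 2)).k2 * gen_mul_w3 h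

theorem gen_wC_ne {w : Fin 5 → N} (h : GenS P w)
    (hL : (dat P (w 2)).wL 1 (w 1) (w 3) (w 4) ≠ 0) : Dat.wC 1 (w 1) (w 3) (w 4) ≠ 0 := by
  intro h0
  have h1 := gen_mul_wC h
  rw [h0, mul_zero] at h1
  exact hL (neg_eq_zero.1 h1.symm)

/-- evaluation at `z` as an algebra homomorphism over `ℂ` -/
noncomputable def evz (z : N) : N[X] →ₐ[ℂ] N := (Polynomial.aeval z : N[X] →ₐ[N] N).restrictScalars ℂ

theorem evz_apply (z : N) (p : N[X]) : evz z p = p.eval z := by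
  unfold evz
  rw [AlgHom.restrictScalars_apply, Polynomial.coe_aeval_eq_eval]

theorem eval_tB (l : N) (p r y : N[X]) (z : N) :
    (tB P (C l) p r y).eval z = tB P l (p.eval z) (r.eval z) (y.eval z) := by
  rw [← evz_apply, map_tB]
  simp only [evz_apply, eval_C]

theorem eval_tPhi (l : N) (p r y S : N[X]) (z : N) :
    (tPhi P (C l) p r y S).eval z = tPhi P l (p.eval z) (r.eval z) (y.eval z) (S.eval z) := by
  rw [← evz_apply, map_tPhi]
  simp only [evz_apply, eval_C]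

end

section main

variable {K : Type} [Field K] [Algebra ℂ K] {N : Type} [Field N] [Algebra ℂ N] {P : Par}

/-- **The chords are lines of the double solid.** -/
theorem exists_yline (x₀ : Fin 5 → K) {w w' : Fin 5 → N} (hw : GenS P w) (hw' : GenS P w')
    (hy : w' 2 = w 2) {l g0 g1 g2 g3 : N}
    (hl : (dat P (w 2)).Lin l (w 1) (w 3) (w 4) g0 g1 g2 g3)
    (hL' : (dat P (w 2)).wL 1 (w' 1) (w' 3) (w' 4) ≠ 0) {c : N} (hc : c ≠ 0)
    (c0 : c = (dat P (w 2)).wQ g0 g1 g2 g3 -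
      (dat P (w 2)).wb 1 (w 1) (w 3) (w 4) g0 g1 g2 g3 * g0)
    (c1 : c * w' 1 = (dat P (w 2)).wQ g0 g1 g2 g3 * w 1 -
      (dat P (w 2)).wb 1 (w 1) (w 3) (w 4) g0 g1 g2 g3 * g1)
    (c2 : c * w' 3 = (dat P (w 2)).wQ g0 g1 g2 g3 * w 3 -
      (dat P (w 2)).wb 1 (w 1) (w 3) (w 4) g0 g1 g2 g3 * g2)
    (c3 : c * w' 4 = (dat P (w 2)).wQ g0 g1 g2 g3 * w 4 -
      (dat P (w 2)).wb 1 (w 1) (w 3) (w 4) g0 g1 g2 g3 * g3) :
    ∃ p0 p1 r0 r1 s0 s1 s2 : N, YLine P l (w 2) p0 p1 r0 r1 s0 s1 s2 ∧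
      s2 = -(p1 ^ 2 - r1 ^ 2) ∧
      (∀ z : N, tPhi P l (p0 + p1 * z) (r0 + r1 * z) (w 2) (s0 + s1 * z + s2 * z ^ 2) = 0 →
        H55Z.Good P l (p0 + p1 * z) (r0 + r1 * z) (w 2) (s0 + s1 * z + s2 * z ^ 2)) ∧
      ycyc P x₀ l (w 2) p0 p1 r0 r1 s0 s1 s2 = H160.Z2Irr.pt x₀ w + H160.Z2Irr.pt x₀ w' := by
  classical
  have : CharZero N := charZero_of_injective_algebraMap (algebraMap ℂ N).injective
  set D := dat P (w 2) with hD
  have hU : D.U ≠ 0 := hw.nU
  have hV : D.V ≠ 0 := hw.nV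
  have hh : D.h l ≠ 0 := hl.h_ne hU hV
  set κ := w 1 with hκ
  set σ := w 3 with hσ
  set τ := w 4 with hτ
  set Q := D.wQ g0 g1 g2 g3 with hQ
  set b := D.wb 1 κ σ τ g0 g1 g2 g3 with hb
  have hQ0 : Q ≠ 0 := hl.gQ
  have hL0 : D.wL 1 κ σ τ ≠ 0 := hl.xL
  obtain ⟨la, hla⟩ : ∃ m : N, m = D.h l / (D.U * D.V * D.wL 1 κ σ τ) := ⟨_, rfl⟩
  have hla0 : la ≠ 0 := by
    rw [hla]
    exact div_ne_zero hh (mul_ne_zero (mul_ne_zero hU hV) hL0)
  have hlaL : D.U * D.V * (la * D.wL 1 κ σ τ) = D.h l := by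
    rw [hla]
    field_simp
  obtain ⟨p0, hp0⟩ : ∃ m : N, m = (la - D.B * D.U) / D.V := ⟨_, rfl⟩
  obtain ⟨p1, hp1⟩ : ∃ m : N, m = g0 / D.V := ⟨_, rfl⟩
  obtain ⟨r0, hr0⟩ : ∃ m : N, m = (la * κ - D.A * D.V) / D.U := ⟨_, rfl⟩
  obtain ⟨r1, hr1⟩ : ∃ m : N, m = g1 / D.U := ⟨_, rfl⟩
  obtain ⟨s0, hs0⟩ : ∃ m : N, m = -((p0 + r0) ^ 2 + D.a * p0 + D.c * r0 - D.m -
      l * (D.U * p0 + D.V * r0 - D.e) - 2 * (p0 * r0 - D.A * D.B)) +
      2 * (la * κ - 2 * D.A * D.V - l * D.U * D.V) * (la * κ) / D.U ^ 2 -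
      2 * D.V * (la * σ) / D.U := ⟨_, rfl⟩
  obtain ⟨s1, hs1⟩ : ∃ m : N, m = -(2 * (p0 + r0) * (p1 + r1) + D.a * p1 + D.c * r1 -
      l * (D.U * p1 + D.V * r1) - 2 * (p0 * r1 + p1 * r0)) +
      2 * ((la * κ - 2 * D.A * D.V - l * D.U * D.V) * g1 + g1 * (la * κ)) / D.U ^ 2 -
      2 * D.V * g2 / D.U := ⟨_, rfl⟩
  obtain ⟨s2, hs2⟩ : ∃ m : N, m = -(p1 ^ 2 + r1 ^ 2) + 2 * g1 ^ 2 / D.U ^ 2 := ⟨_, rfl⟩
  have hcor : ∀ z : N, D.Cor l (p0 + p1 * z) (r0 + r1 * z) (s0 + s1 * z + s2 * z ^ 2)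
      (la * 1 + z * g0) (la * κ + z * g1) (la * σ + z * g2) (la * τ + z * g3) := by
    intro z
    refine Dat.Cor.of hU hV ?_ ?_ ?_ ?_
    · unfold Dat.E
      rw [hp0, hp1]
      field_simp
      ring
    · unfold Dat.F
      rw [hr0, hr1]
      field_simp
      ring
    · have hF : D.F (r0 + r1 * z) = la * κ + z * g1 := by
        unfold Dat.F
        rw [hr0, hr1]
        field_simp
        ring
      have hK : D.K l (p0 + p1 * z) (r0 + r1 * z) + (s0 + s1 * z + s2 * z ^ 2) =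
          2 * (la * κ + z * g1 - 2 * D.A * D.V - l * D.U * D.V) * (la * κ + z * g1) / D.U ^ 2 -
            2 * D.V * (la * σ + z * g2) / D.U := by
        rw [hs0, hs1, hs2]
        unfold Dat.K Dat.J0 Dat.J1 Dat.N
        ring
      have hr : (r0 + r1 * z) * D.U = la * κ + z * g1 - D.A * D.V := by
        rw [hr0, hr1]
        field_simp
        ring
      unfold Dat.sN
      rw [hK, hF]
      have hr' : (r0 + r1 * z - l * D.V) * D.U - D.A * D.V =
          la * κ + z * g1 - 2 * D.A * D.V - l * D.U * D.V := by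
        linear_combination hr
      rw [hr']
      field_simp
      ring
    · rw [Dat.wL_line, hl.gL, mul_zero, add_zero]
      exact hlaL
  have hYL : YLine P l (w 2) p0 p1 r0 r1 s0 s1 s2 := by
    refine ⟨?_, ?_⟩
    · rcases hl.g_ne with h | h
      · left
        rw [hp1]
        exact div_ne_zero h hV
      · right
        rw [hr1]
        exact div_ne_zero h hU
    · apply Polynomial.funext
      intro z
      rw [eval_tB]
      simp only [eval_add, eval_mul, eval_C, eval_X, eval_pow]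
      exact hl.B hU hV (hcor z)
  have hsign : s2 = -(p1 ^ 2 - r1 ^ 2) := by
    rw [hs2, hr1]
    ring
  obtain ⟨z', hz'⟩ : ∃ m : N, m = -(la * b) / Q := ⟨_, rfl⟩
  have hPhi : tPhi P (C l) (C p0 + C p1 * X) (C r0 + C r1 * X) (C (w 2))
      (C s0 + C s1 * X + C s2 * X ^ 2) =
      C (-2 * D.U ^ 2 * D.V ^ 2 * Q) * ((X - C 0) * (X - C z')) := by
    apply Polynomial.funext
    intro z
    rw [eval_tPhi]
    simp only [eval_add, eval_mul, eval_C, eval_X, eval_pow, eval_sub]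
    have h1 := hl.Phi hU hV (hcor z)
    have h2 : Q * z' = -(la * b) := by
      rw [hz']
      field_simp
    refine h1.trans ?_
    linear_combination (-2 * D.U ^ 2 * D.V ^ 2) * (z * h2)
  have hk0 : -2 * D.U ^ 2 * D.V ^ 2 * Q ≠ 0 :=
    mul_ne_zero (mul_ne_zero (mul_ne_zero (neg_ne_zero.2 two_ne_zero) (pow_ne_zero 2 hU))
      (pow_ne_zero 2 hV)) hQ0
  have hroots : (tPhi P (C l) (C p0 + C p1 * X) (C r0 + C r1 * X) (C (w 2))
      (C s0 + C s1 * X + C s2 * X ^ 2)).roots = {0} + {z'} := by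
    rw [hPhi, roots_C_mul _ hk0, roots_mul (mul_ne_zero (X_sub_C_ne_zero 0) (X_sub_C_ne_zero z')),
      roots_X_sub_C, roots_X_sub_C]
  -- the points
  have hμ : la * c / Q ≠ 0 := div_ne_zero (mul_ne_zero hla0 hc) hQ0
  have hD' : dat P (w' 2) = D := by rw [hy]
  have hv0 : la * 1 + z' * g0 = la * c / Q := by
    rw [c0, hz']
    field_simp
    ring
  have hv1 : la * κ + z' * g1 = la * c / Q * w' 1 := by
    rw [div_mul_eq_mul_div, mul_assoc, c1, hz']
    field_simp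
    ring
  have hv2 : la * σ + z' * g2 = la * c / Q * w' 3 := by
    rw [div_mul_eq_mul_div, mul_assoc, c2, hz']
    field_simp
    ring
  have hv3 : la * τ + z' * g3 = la * c / Q * w' 4 := by
    rw [div_mul_eq_mul_div, mul_assoc, c3, hz']
    field_simp
    ring
  have ht0 : toS P l (p0 + p1 * 0) (r0 + r1 * 0) (w 2) (s0 + s1 * 0 + s2 * 0 ^ 2) = w := by
    obtain ⟨q0, q1, q3, q4⟩ := (hcor 0).toX (x := w 0) (κ := κ) (σ := σ) (τ := τ) hU hV hla0
      (by ring) (by ring) (by ring) (by ring) (gen_wC_ne hw hL0) (gen_mul_wC hw)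
    funext i
    fin_cases i
    · exact q0
    · exact q1
    · rfl
    · exact q3
    · exact q4
  have ht1 : toS P l (p0 + p1 * z') (r0 + r1 * z') (w 2) (s0 + s1 * z' + s2 * z' ^ 2) = w' := by
    obtain ⟨q0, q1, q3, q4⟩ := (hcor z').toX (x := w' 0) (κ := w' 1) (σ := w' 3) (τ := w' 4)
      hU hV hμ hv0 hv1 hv2 hv3 (gen_wC_ne hw' (by rw [hD']; exact hL'))
      (by rw [gen_mul_wC hw', hD'])
    funext i
    fin_cases i
    · exact q0
    · exact q1
    · exact hy.symm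
    · exact q3
    · exact q4
  have hgood : ∀ z : N, tPhi P l (p0 + p1 * z) (r0 + r1 * z) (w 2)
      (s0 + s1 * z + s2 * z ^ 2) = 0 →
      H55Z.Good P l (p0 + p1 * z) (r0 + r1 * z) (w 2) (s0 + s1 * z + s2 * z ^ 2) := by
    intro z hz
    have h1 := congrArg (eval z) hPhi
    rw [eval_tPhi] at h1
    simp only [eval_add, eval_mul, eval_C, eval_X, eval_pow, eval_sub] at h1
    rw [hz] at h1
    have h2 : z = 0 ∨ z = z' := by
      rcases mul_eq_zero.1 ((mul_eq_zero.1 h1.symm).resolve_left hk0) with h3 | h3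
      · left
        linear_combination h3
      · right
        linear_combination h3
    rcases h2 with rfl | rfl
    · refine ⟨hU, hV, ?_, ?_, hh, by rw [ht0]; exact hw⟩
      · have h3 := (hcor 0).E
        rw [h3]
        have h4 : la * 1 + 0 * g0 = la := by ring
        rw [h4]
        exact hla0
      · have h3 := (hcor 0).Kc_eq hU hV (κ := κ) (σ := σ) (τ := τ) (μ := la) (by ring) (by ring)
          (by ring) (by ring)
        rw [h3]
        exact mul_ne_zero (mul_ne_zero (mul_ne_zero two_ne_zero hU) hV)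
          (mul_ne_zero (pow_ne_zero 3 hla0) (gen_wC_ne hw hL0))
    · refine ⟨hU, hV, ?_, ?_, hh, by rw [ht1]; exact hw'⟩
      · have h3 := (hcor z).E
        rw [h3, hv0]
        exact hμ
      · have h3 := (hcor z).Kc_eq hU hV (κ := w' 1) (σ := w' 3) (τ := w' 4) (μ := la * c / Q)
          hv0 hv1 hv2 hv3
        rw [h3]
        exact mul_ne_zero (mul_ne_zero (mul_ne_zero two_ne_zero hU) hV)
          (mul_ne_zero (pow_ne_zero 3 hμ) (gen_wC_ne hw' (by rw [hD']; exact hL')))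
  refine ⟨p0, p1, r0, r1, s0, s1, s2, hYL, hsign, hgood, ?_⟩
  unfold ycyc Z2.cyc
  rw [hroots, Multiset.map_add, Multiset.sum_add, Multiset.map_singleton, Multiset.map_singleton,
    Multiset.sum_singleton, Multiset.sum_singleton]
  simp only [eval_add, eval_mul, eval_C, eval_X, eval_pow]
  rw [ht0, ht1]

end main

end Vale.Agent.P297.H251.Z2
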