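import Vale.Agent.P297.H251.Z2.LinInd
import Vale.Agent.P297.H424.Z2.Main

/-!
The general numerical Godeaux surface with torsion of order two: the block `ChordLine`.
-/

namespace Vale.Agent.P297.H251.Z2

open Vale.Agent.P297.H160.Z2Irr Vale.Agent.P297.H288.K2 Vale.Agent.P297.Z2

/-- **The chords are lines of the double solids `T_l`, with `(l, y)` independent.** -/
theorem chordLine {K : Type} [Field K] [Algebra ℂ K] {N : Type} [Field N] [Algebra ℂ N]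
    [IsAlgClosed N] {P : Par} (x₀ : Fin 5 → K) (hLI : LinInd P N) (hQ : P.Q0 ≠ P.Q1)
    (h0 : P.P0 ≠ 0) : ChordLine P x₀ N fun l w w' => ∃ t, IsChord P l t w w' := by
  rintro l w w' ⟨t, h⟩
  obtain ⟨p0, p1, r0, r1, s0, s1, s2, h1, -, -, h2⟩ := chord_yline hLI x₀ h
  exact ⟨ind_ly hLI hQ h0 h, p0, p1, r0, r1, s0, s1, s2, h1, h2⟩

/-- **The chords are lines of the double solids `T_l`**, with the sign of the leading coefficient
of the square root, and all the points on them are good. -/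
theorem chordLine_sgn {K : Type} [Field K] [Algebra ℂ K] {N : Type} [Field N] [Algebra ℂ N]
    [IsAlgClosed N] {P : Par} (x₀ : Fin 5 → K) (h0 : P.P0 ≠ 0) (h2 : P.P2 ≠ 0)
    (hQ : P.Q0 ≠ P.Q1) (l : N) (w w' : Fin 5 → N) (h : ∃ t, IsChord P l t w w') :
    AlgebraicIndependent ℂ ![l, w 2] ∧ ∃ p0 p1 r0 r1 s0 s1 s2,
      YLine P l (w 2) p0 p1 r0 r1 s0 s1 s2 ∧ s2 = -(p1 ^ 2 - r1 ^ 2) ∧
        (∀ z : N, tPhi P l (p0 + p1 * z) (r0 + r1 * z) (w 2) (s0 + s1 * z + s2 * z ^ 2) = 0 →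
          H55Z.Good P l (p0 + p1 * z) (r0 + r1 * z) (w 2) (s0 + s1 * z + s2 * z ^ 2)) ∧
        ycyc P x₀ l (w 2) p0 p1 r0 r1 s0 s1 s2 =
          H160.Z2Irr.pt x₀ w + H160.Z2Irr.pt x₀ w' := by
  obtain ⟨t, h⟩ := h
  exact ⟨ind_ly (linInd h0 h2) hQ h0 h, chord_yline (linInd h0 h2) x₀ h⟩

/-- **The block `ChordLine`.** -/
theorem chordLine' {K : Type} [Field K] [Algebra ℂ K] {N : Type} [Field N] [Algebra ℂ N]
    [IsAlgClosed N] {P : Par} (x₀ : Fin 5 → K) (h0 : P.P0 ≠ 0) (h2 : P.P2 ≠ 0)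
    (hQ : P.Q0 ≠ P.Q1) : ChordLine P x₀ N fun l w w' => ∃ t, IsChord P l t w w' :=
  chordLine x₀ (linInd h0 h2) hQ h0

end Vale.Agent.P297.H251.Z2
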