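import Vale.Agent.P297.H288.K2.Chord
import Vale.Agent.P297.H288.K2.Place
import Vale.Agent.P297.H251.Z2.Chord
import Vale.Agent.P297.H160.Z2Gen

/-!
The general numerical Godeaux surface with torsion of order two: for a chord on a line of the cubic
surface of parameter `l` over `y`, the pair `(l, y)` is independent.
-/

set_option linter.unusedSectionVars false
set_option linter.unusedVariables false
set_option linter.style.haveILetI false
set_option linter.unusedSimpArgs false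

open IntermediateField Polynomial

namespace Vale.Agent.P297.H251.Z2

open Vale.Agent.P297 Vale.Agent.P297.Gen Vale.Agent.P297.H72
open Vale.Agent.P297.H160.Z2Irr Vale.Agent.P297.H279.K2 Vale.Agent.P297.H288.K2
open Vale.Agent.P297.Z2

section ring

variable {R : Type*} [CommRing R] (D : KD R)

/-- the coefficient of `α ^ 2 β` in `Kf l (α v + β w)` -/
def K21 (l : R) (v w : Fin 4 → R) : R :=
  (D.m - l * D.e) * KD.C31 v w + (D.Q3 v - l * D.Q2 v) * D.L w +
    (D.b3 v w - l * D.b2 v w) * D.L v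

theorem Kf_lc (l α β : R) (v w : Fin 4 → R) : D.Kf l (KD.lc α v β w) =
    α ^ 3 * D.Kf l v + α ^ 2 * β * K21 D l v w + α * β ^ 2 * K21 D l w v + β ^ 3 * D.Kf l w := by
  have h2 : D.b2 w v = D.b2 v w := by
    simp only [KD.b2]
    ring
  have h3 : D.b3 w v = D.b3 v w := by
    simp only [KD.b3]
    ring
  simp only [KD.Kf, K21, KD.C3_lc, KD.Q2_lc, KD.Q3_lc, KD.L_lc, h2, h3]
  ring

theorem map_K21 {R' : Type*} [CommRing R'] (f : R →+* R') (l : R) (v w : Fin 4 → R) :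
    f (K21 D l v w) = K21 (D.map f) (f l) (fun i => f (v i)) (fun i => f (w i)) := by
  simp only [K21, map_add, map_sub, map_mul, KD.map_C31, KD.map_Q3, KD.map_Q2, KD.map_L,
    KD.map_b3, KD.map_b2]
  rfl

theorem map_Kf {R' : Type*} [CommRing R'] (f : R →+* R') (l : R) (v : Fin 4 → R) :
    f (D.Kf l v) = (D.map f).Kf (f l) (fun i => f (v i)) := by
  simp only [KD.Kf, map_add, map_sub, map_mul, KD.map_C3, KD.map_Q3, KD.map_Q2, KD.map_L]
  rfl

end ring

section field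

variable {k : Type*} [Field k] [CharZero k] {D : KD k}

theorem coeffs {l : k} {v w : Fin 4 → k} (h : ∀ α β : k, D.Kf l (KD.lc α v β w) = 0) :
    D.Kf l v = 0 ∧ K21 D l v w = 0 ∧ K21 D l w v = 0 ∧ D.Kf l w = 0 := by
  have h10 := h 1 0
  have h01 := h 0 1
  have h11 := h 1 1
  have h12 := h 1 (-1)
  rw [Kf_lc] at h10 h01 h11 h12
  have e1 : D.Kf l v = 0 := by linear_combination h10
  have e4 : D.Kf l w = 0 := by linear_combination h01
  have h2 : (2 : k) ≠ 0 := two_ne_zero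
  refine ⟨e1, ?_, ?_, e4⟩
  · apply mul_left_cancel₀ h2
    linear_combination h11 - h12 - 2 * e4
  · apply mul_left_cancel₀ h2
    linear_combination h11 + h12 - 2 * e1

/-- **There is no line through the node of the nodal cubic on the cubic surface.** -/
theorem no_line {l a0 : k} {v : Fin 4 → k} (hU : D.U ≠ 0) (hV : D.V ≠ 0)
    (ha0 : D.V * a0 = D.U) (hκ : D.m - l * D.e ≠ 0) (hp : D.a + D.c ≠ 0) (hm : D.a - D.c ≠ 0)
    (h3 : v 3 = 0) (e1 : K21 D l (D.gam 1 a0) v = 0) (e2 : K21 D l v (D.gam 1 a0) = 0)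
    (e3 : D.Kf l v = 0) : v = 0 := by
  have ha : a0 ≠ 0 := by
    rintro rfl
    rw [mul_zero] at ha0
    exact hU ha0.symm
  obtain ⟨G, hG⟩ : ∃ G, G = D.a * D.U + D.c * D.U := ⟨_, rfl⟩
  have hG0 : G ≠ 0 := by
    rw [hG, ← add_mul]
    exact mul_ne_zero hp hU
  have g0 : D.gam 1 a0 0 = 0 := by
    change 1 * (D.U ^ 2 * 1 ^ 2 - D.V ^ 2 * a0 ^ 2) = 0
    linear_combination (-(D.V * a0) - D.U) * ha0
  have g1 : D.gam 1 a0 1 = 0 := by
    change a0 * (D.U ^ 2 * 1 ^ 2 - D.V ^ 2 * a0 ^ 2) = 0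
    linear_combination a0 * (-(D.V * a0) - D.U) * ha0
  have g2 : D.gam 1 a0 2 = a0 ^ 2 * G := by
    change a0 ^ 2 * (D.a * D.U * 1 + D.c * D.V * a0) = a0 ^ 2 * G
    rw [hG]
    linear_combination a0 ^ 2 * D.c * ha0
  have g3 : D.gam 1 a0 3 = G := by
    change 1 ^ 2 * (D.a * D.U * 1 + D.c * D.V * a0) = G
    rw [hG]
    linear_combination D.c * ha0
  have hLg := D.L_gam 1 a0
  have hLv : D.L v = 0 := by
    have h5 : a0 ^ 2 * G ^ 2 * D.L v = 0 := by
      rw [← e1]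
      unfold K21
      rw [hLg]
      unfold KD.C31 KD.Q3 KD.Q2
      rw [g0, g1, g2, g3]
      ring
    exact (mul_eq_zero.1 h5).resolve_left (mul_ne_zero (pow_ne_zero 2 ha) (pow_ne_zero 2 hG0))
  have h6 : (v 1) ^ 2 = a0 ^ 2 * (v 0) ^ 2 := by
    have h5 : (D.m - l * D.e) * (G * ((v 1) ^ 2 - a0 ^ 2 * (v 0) ^ 2)) = 0 := by
      rw [← e2]
      unfold K21
      rw [hLg, hLv]
      unfold KD.C31
      rw [g0, g1, g2, g3]
      ring
    have h7 := (mul_eq_zero.1 ((mul_eq_zero.1 h5).resolve_left hκ)).resolve_left hG0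
    linear_combination h7
  have h8 : v 2 * (v 0) ^ 2 = 0 := by
    have h5 : (D.m - l * D.e) * (-(v 2 * (v 0) ^ 2)) = 0 := by
      rw [← e3]
      unfold KD.Kf
      rw [hLv]
      unfold KD.C3
      rw [h3]
      ring
    exact neg_eq_zero.1 ((mul_eq_zero.1 h5).resolve_left hκ)
  have h9 : D.V ^ 2 * v 2 + D.a * D.U * v 0 + D.c * D.V * v 1 = 0 := by
    unfold KD.L at hLv
    rw [h3] at hLv
    linear_combination -hLv
  have h0 : v 0 = 0 := by
    by_contra h0
    have h10 : v 2 = 0 := (mul_eq_zero.1 h8).resolve_right (pow_ne_zero 2 h0)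
    rw [h10, mul_zero, zero_add] at h9
    have h11 : (v 1 - a0 * v 0) * (v 1 + a0 * v 0) = 0 := by linear_combination h6
    rcases mul_eq_zero.1 h11 with h12 | h12
    · have h13 : (D.a + D.c) * (D.U * v 0) = 0 := by
        linear_combination h9 - D.c * D.V * h12 - D.c * v 0 * ha0
      exact mul_ne_zero hp (mul_ne_zero hU h0) h13
    · have h13 : (D.a - D.c) * (D.U * v 0) = 0 := by
        linear_combination h9 - D.c * D.V * h12 + D.c * v 0 * ha0
      exact mul_ne_zero hm (mul_ne_zero hU h0) h13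
  have h1 : v 1 = 0 := by
    rw [h0] at h6
    exact pow_eq_zero_iff two_ne_zero |>.1 (by rw [h6]; ring)
  have h2 : v 2 = 0 := by
    rw [h0, h1, mul_zero, mul_zero, add_zero, add_zero] at h9
    exact (mul_eq_zero.1 h9).resolve_left (pow_ne_zero 2 hV)
  funext i
  fin_cases i
  · exact h0
  · exact h1
  · exact h2
  · exact h3

end field

section bridge

variable {N : Type} [Field N] [Algebra ℂ N] (P : Par) (y : N)

theorem kd_L (v : Fin 4 → N) : (kd P y).L v = (dat P y).wL (v 0) (v 1) (v 2) (v 3) := rfl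

theorem kd_C3 (v : Fin 4 → N) : KD.C3 v = Dat.wC (v 0) (v 1) (v 2) (v 3) := rfl

theorem kd_e : (kd P y).e = (dat P y).k2 := rfl

theorem kd_m : (kd P y).m = (dat P y).k3 := rfl

theorem kd_Q2 (v : Fin 4 → N) : (kd P y).Q2 v = (dat P y).w2 (v 0) (v 1) (v 2) (v 3) := by
  have hA : (kd P y).A = (dat P y).i0 := rfl
  have hB : (kd P y).B = (dat P y).i2 := rfl
  unfold KD.Q2 Dat.w2
  rw [hA, hB]
  ring

theorem kd_Q3 (v : Fin 4 → N) : (kd P y).Q3 v = (dat P y).w3 (v 0) (v 1) (v 2) (v 3) := by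
  have hA : (kd P y).A = (dat P y).i0 := rfl
  have hB : (kd P y).B = (dat P y).i2 := rfl
  unfold KD.Q3 Dat.w3
  rw [hA, hB]
  ring

theorem kd_Q (v : Fin 4 → N) : (kd P y).Q v = (dat P y).wQ (v 0) (v 1) (v 2) (v 3) := by
  unfold KD.Q Dat.wQ
  rw [kd_Q2, kd_Q3, kd_e, kd_m]

theorem kd_Kf (l : N) (v : Fin 4 → N) :
    (kd P y).Kf l v = (dat P y).wK l (v 0) (v 1) (v 2) (v 3) := by
  unfold KD.Kf Dat.wK
  rw [kd_Q2, kd_Q3, kd_e, kd_m]
  rfl

theorem kd_b (v w : Fin 4 → N) : (kd P y).b v w =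
    (dat P y).wb (v 0) (v 1) (v 2) (v 3) (w 0) (w 1) (w 2) (w 3) := by
  have h := (kd P y).Q_lc 1 1 v w
  rw [kd_Q, kd_Q P y v, kd_Q P y w] at h
  unfold Dat.wb
  simp only [KD.lc, one_mul] at h
  rw [h]
  ring

end bridge

section ind

variable {N : Type} [Field N] [Algebra ℂ N] {P : Par} {l t : N} {w w' : Fin 5 → N}

/-- **`1, k, σ, τ` are linearly independent over the closure of `ℂ(y)`**, at all generic points. -/
def LinInd (P : Par) (N : Type) [Field N] [Algebra ℂ N] : Prop :=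
  ∀ w : Fin 5 → N, GenS P w → ∀ c : Fin 4 → N, (∀ i, c i ∈ cl0 {w 2}) →
    ∑ i, c i * vec w i = 0 → ∀ i, c i = 0

variable [IsAlgClosed N]

theorem y_mem (w : Fin 5 → N) : w 2 ∈ cl0 {w 2} := subset_cl0 _ (Set.mem_singleton _)

theorem L_ne (hLI : LinInd P N) (h : GenS P w) : (kd P (w 2)).L (vec w) ≠ 0 := by
  intro h0
  set F := cl0 {w 2} with hF
  let y' : F := ⟨w 2, y_mem w⟩
  let D' : KD F := kd P y'
  have hD : D'.map F.val = kd P (w 2) := map_kd P F.val y'
  have hU : ((kd P (w 2)).U) ^ 2 ∈ F := pow_mem (by rw [← hD]; exact D'.U.2) 2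
  have hV : ((kd P (w 2)).V) ^ 2 ∈ F := pow_mem (by rw [← hD]; exact D'.V.2) 2
  have haU : (kd P (w 2)).a * (kd P (w 2)).U ∈ F :=
    mul_mem (by rw [← hD]; exact D'.a.2) (by rw [← hD]; exact D'.U.2)
  have hcV : (kd P (w 2)).c * (kd P (w 2)).V ∈ F :=
    mul_mem (by rw [← hD]; exact D'.c.2) (by rw [← hD]; exact D'.V.2)
  have h1 := hLI w h ![-((kd P (w 2)).a * (kd P (w 2)).U), -((kd P (w 2)).c * (kd P (w 2)).V),
    -(kd P (w 2)).V ^ 2, (kd P (w 2)).U ^ 2] (by
      intro i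
      fin_cases i
      · exact neg_mem haU
      · exact neg_mem hcV
      · exact neg_mem hV
      · exact hU) (by
      rw [← h0, Fin.sum_univ_four]
      simp only [Matrix.cons_val_zero, Matrix.cons_val_one, Matrix.cons_val, KD.L]
      ring) 3
  exact pow_ne_zero 2 h.nU h1

/-- The data of a chord. -/
theorem toLin (hLI : LinInd P N) (h : IsChord P l t w w') :
    (dat P (w 2)).Lin l (w 1) (w 3) (w 4) ((kd P (w 2)).gam 1 t 0) ((kd P (w 2)).gam 1 t 1)
      ((kd P (w 2)).gam 1 t 2) ((kd P (w 2)).gam 1 t 3) := by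
  have hxL := L_ne hLI h.gen
  have hxL' := L_ne hLI h.gen'
  rw [h.y_eq] at hxL'
  refine ⟨?_, ?_, ?_, ?_, ?_⟩
  · intro al be
    have h1 := h.line al be
    rw [kd_Kf] at h1
    exact h1
  · have h1 := Q_vec h.gen
    rw [kd_Q] at h1
    exact h1
  · have h1 := (kd P (w 2)).L_gam 1 t
    rw [kd_L] at h1
    exact h1
  · rw [kd_L] at hxL
    exact hxL
  · intro h0
    obtain ⟨c, hc, h1⟩ := h.thd
    have h2 : (kd P (w 2)).L ((kd P (w 2)).zz (vec w) ((kd P (w 2)).gam 1 t)) = 0 := by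
      unfold KD.zz
      rw [KD.L_lc, KD.L_gam, kd_Q]
      rw [h0]
      ring
    rw [h1] at h2
    have h3 : (kd P (w 2)).L (fun i => c * vec w' i) = c * (kd P (w 2)).L (vec w') := by
      unfold KD.L
      ring
    rw [h3] at h2
    exact mul_ne_zero hc hxL' h2

/-- **The chords are lines of the double solid.** -/
theorem chord_yline (hLI : LinInd P N) {K : Type} [Field K] [Algebra ℂ K] (x₀ : Fin 5 → K)
    (h : IsChord P l t w w') : ∃ p0 p1 r0 r1 s0 s1 s2 : N,
      YLine P l (w 2) p0 p1 r0 r1 s0 s1 s2 ∧ s2 = -(p1 ^ 2 - r1 ^ 2) ∧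
        (∀ z : N, tPhi P l (p0 + p1 * z) (r0 + r1 * z) (w 2) (s0 + s1 * z + s2 * z ^ 2) = 0 →
          H55Z.Good P l (p0 + p1 * z) (r0 + r1 * z) (w 2) (s0 + s1 * z + s2 * z ^ 2)) ∧
        ycyc P x₀ l (w 2) p0 p1 r0 r1 s0 s1 s2 =
          H160.Z2Irr.pt x₀ w + H160.Z2Irr.pt x₀ w' := by
  have hxL' := L_ne hLI h.gen'
  rw [h.y_eq, kd_L] at hxL'
  obtain ⟨c, hc, h1⟩ := h.thd
  have hQ : (kd P (w 2)).Q ((kd P (w 2)).gam 1 t) = (dat P (w 2)).wQ ((kd P (w 2)).gam 1 t 0)
      ((kd P (w 2)).gam 1 t 1) ((kd P (w 2)).gam 1 t 2) ((kd P (w 2)).gam 1 t 3) := kd_Q _ _ _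
  have hb : (kd P (w 2)).b (vec w) ((kd P (w 2)).gam 1 t) = (dat P (w 2)).wb 1 (w 1) (w 3) (w 4)
      ((kd P (w 2)).gam 1 t 0) ((kd P (w 2)).gam 1 t 1) ((kd P (w 2)).gam 1 t 2)
      ((kd P (w 2)).gam 1 t 3) := kd_b _ _ _ _
  have hc0 := congrFun h1 0
  have hc1 := congrFun h1 1
  have hc2 := congrFun h1 2
  have hc3 := congrFun h1 3
  unfold KD.zz KD.lc at hc0 hc1 hc2 hc3
  rw [hQ, hb] at hc0 hc1 hc2 hc3
  refine exists_yline x₀ h.gen h.gen' h.y_eq (toLin hLI h) hxL' hc ?_ ?_ ?_ ?_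
  · have h5 : vec w' 0 = 1 := rfl
    have h6 : vec w 0 = 1 := rfl
    rw [h5, h6] at hc0
    linear_combination -hc0
  · have h5 : vec w' 1 = w' 1 := rfl
    have h6 : vec w 1 = w 1 := rfl
    rw [h5, h6] at hc1
    linear_combination -hc1
  · have h5 : vec w' 2 = w' 3 := rfl
    have h6 : vec w 2 = w 3 := rfl
    rw [h5, h6] at hc2
    linear_combination -hc2
  · have h5 : vec w' 3 = w' 4 := rfl
    have h6 : vec w 3 = w 4 := rfl
    rw [h5, h6] at hc3
    linear_combination -hc3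

theorem chord_coeffs (h : IsChord P l t w w') :
    K21 (kd P (w 2)) l (vec w) ((kd P (w 2)).gam 1 t) = 0 ∧
      K21 (kd P (w 2)) l ((kd P (w 2)).gam 1 t) (vec w) = 0 := by
  have : CharZero N := charZero_of_injective_algebraMap (algebraMap ℂ N).injective
  obtain ⟨-, h1, h2, -⟩ := coeffs h.line
  exact ⟨h1, h2⟩

/-- The point of the nodal cubic is not defined over the closure of `ℂ(y)`, if `l` is. -/
theorem t_notMem (hLI : LinInd P N) (h : IsChord P l t w w') (hl : l ∈ cl0 {w 2}) :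
    t ∉ cl0 {w 2} := by
  intro ht
  have : CharZero N := charZero_of_injective_algebraMap (algebraMap ℂ N).injective
  have hLin := toLin hLI h
  have hk := hLin.kl_ne
  have hg := hLin.g_ne
  rw [← kd_e, ← kd_m] at hk
  set F := cl0 {w 2} with hF
  let y' : F := ⟨w 2, y_mem w⟩
  let l' : F := ⟨l, hl⟩
  let t' : F := ⟨t, ht⟩
  let D' : KD F := kd P y'
  let f : F →+* N := (F.val : F →+* N)
  have hD : D'.map f = kd P (w 2) := map_kd P F.val y'
  let G : Fin 4 → F := D'.gam 1 t'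
  have hG : (fun i => f (G i)) = (kd P (w 2)).gam 1 t := by
    have h1 := D'.map_gam f 1 t'
    rw [hD, map_one] at h1
    exact h1
  have hG' : ∀ i, f (G i) = (kd P (w 2)).gam 1 t i := fun i => congrFun hG i
  let κ : F := D'.m - l' * D'.e
  let W : F := D'.Q3 G - l' * D'.Q2 G
  let c : Fin 4 → F := ![-(2 * κ * G 2 * G 0) - D'.a * D'.U * W,
    2 * κ * G 3 * G 1 - D'.c * D'.V * W, -(κ * G 0 ^ 2) - D'.V ^ 2 * W,
    κ * G 1 ^ 2 + D'.U ^ 2 * W]
  have hW : f W = (kd P (w 2)).Q3 ((kd P (w 2)).gam 1 t) -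
      l * (kd P (w 2)).Q2 ((kd P (w 2)).gam 1 t) := by
    change f (D'.Q3 G - l' * D'.Q2 G) = _
    rw [map_sub, map_mul, KD.map_Q3, KD.map_Q2, hD, hG]
    rfl
  have hκ : f κ = (kd P (w 2)).m - l * (kd P (w 2)).e := by
    change f (D'.m - l' * D'.e) = _
    rw [map_sub, map_mul]
    have h1 : f D'.m = (kd P (w 2)).m := congrArg KD.m hD
    have h2 : f D'.e = (kd P (w 2)).e := congrArg KD.e hD
    rw [h1, h2]
    rfl
  have h1 := (chord_coeffs h).2
  have h2 : ∑ i, f (c i) * vec w i = 0 := by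
    rw [← h1]
    unfold K21
    rw [KD.L_gam]
    rw [← hW, ← hκ]
    have hU : f D'.U = (kd P (w 2)).U := congrArg KD.U hD
    have hV : f D'.V = (kd P (w 2)).V := congrArg KD.V hD
    have ha : f D'.a = (kd P (w 2)).a := congrArg KD.a hD
    have hc : f D'.c = (kd P (w 2)).c := congrArg KD.c hD
    unfold KD.C31 KD.L
    rw [← hU, ← hV, ← ha, ← hc, ← hG' 0, ← hG' 1, ← hG' 2, ← hG' 3, Fin.sum_univ_four]
    simp only [c, Matrix.cons_val_zero, Matrix.cons_val_one, Matrix.cons_val, map_add, map_sub,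
      map_mul, map_neg, map_pow, map_ofNat]
    ring
  have h3 := hLI w h.gen (fun i => f (c i)) (fun i => (c i).2) h2
  have h4 : c 2 = 0 := by
    have h5 := h3 2
    exact (map_eq_zero f).1 h5
  have h6 : c 3 = 0 := by
    have h5 := h3 3
    exact (map_eq_zero f).1 h5
  have h7 : -(κ * G 0 ^ 2) - D'.V ^ 2 * W = 0 := h4
  have h8 : κ * G 1 ^ 2 + D'.U ^ 2 * W = 0 := h6
  have hκ0 : κ ≠ 0 := by
    intro h0
    rw [h0, map_zero] at hκ
    exact hk hκ.symm
  obtain ⟨d, hd⟩ : ∃ d, d = D'.U ^ 2 * 1 ^ 2 - D'.V ^ 2 * t' ^ 2 := ⟨_, rfl⟩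
  have hG0 : G 0 = d := by
    change 1 * (D'.U ^ 2 * 1 ^ 2 - D'.V ^ 2 * t' ^ 2) = d
    rw [hd, one_mul]
  have hG1 : G 1 = t' * d := by
    change t' * (D'.U ^ 2 * 1 ^ 2 - D'.V ^ 2 * t' ^ 2) = t' * d
    rw [hd]
  have h9 : κ * d ^ 3 = 0 := by
    rw [hG0] at h7
    rw [hG1] at h8
    linear_combination κ * d ^ 2 * hd - D'.U ^ 2 * h7 - D'.V ^ 2 * h8
  have hd0 : d = 0 := pow_eq_zero_iff three_ne_zero |>.1 ((mul_eq_zero.1 h9).resolve_left hκ0)
  rcases hg with h10 | h10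
  · apply h10
    rw [← hG' 0, hG0, hd0, map_zero]
  · apply h10
    rw [← hG' 1, hG1, hd0, mul_zero, map_zero]

/-- Scaling to a vector of the valuation ring with an entry one. -/
theorem exists_scale (V : ValuationSubring N) {u : Fin 4 → N} (hu : u ≠ 0) :
    ∃ s : N, s ≠ 0 ∧ (∀ i, s * u i ∈ V) ∧ ∃ i, s * u i = 1 := by
  obtain ⟨i₀, hi₀⟩ := Finite.exists_max (fun i => V.valuation (u i))
  have h0 : u i₀ ≠ 0 := by
    intro h0
    apply hu
    funext i
    have h1 := hi₀ i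
    rw [h0, map_zero, le_zero_iff, map_eq_zero] at h1
    exact h1
  refine ⟨(u i₀)⁻¹, inv_ne_zero h0, fun i => ?_, i₀, inv_mul_cancel₀ h0⟩
  rw [← V.valuation_le_one_iff, map_mul, map_inv₀]
  have h1 : V.valuation (u i₀) ≠ 0 := (Valuation.ne_zero_iff _).2 h0
  calc (V.valuation (u i₀))⁻¹ * V.valuation (u i) ≤ (V.valuation (u i₀))⁻¹ * V.valuation (u i₀) :=
        mul_le_mul_right (hi₀ i) _
    _ = 1 := inv_mul_cancel₀ h1

/-- **`l` is not algebraic over `ℂ(y)`.** -/
theorem l_notMem (hLI : LinInd P N) (hQ : P.Q0 ≠ P.Q1) (h0 : P.P0 ≠ 0)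
    (h : IsChord P l t w w') : l ∉ cl0 {w 2} := by
  intro hl
  have : CharZero N := charZero_of_injective_algebraMap (algebraMap ℂ N).injective
  have ht := t_notMem hLI h hl
  have hLin := toLin hLI h
  have hk := hLin.kl_ne
  rw [← kd_e, ← kd_m] at hk
  have hU0 : (kd P (w 2)).U ≠ 0 := h.gen.nU
  have hV0 : (kd P (w 2)).V ≠ 0 := h.gen.nV
  have hL0 := L_ne hLI h.gen
  set F := cl0 {w 2} with hF
  have hUF : (kd P (w 2)).U ∈ F := by
    have h1 : (kd P (w 2)).U = F.val (fU P (⟨w 2, y_mem w⟩ : F)) := by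
      rw [map_fU]
      rfl
    rw [h1]
    exact Subtype.property _
  have hVF : (kd P (w 2)).V ∈ F := by
    have h1 : (kd P (w 2)).V = F.val (fV P (⟨w 2, y_mem w⟩ : F)) := by
      rw [map_fV]
      rfl
    rw [h1]
    exact Subtype.property _
  obtain ⟨M, Pl, hFM, hM, htM, hval⟩ := Vale.Agent.P297.H288.K2.exists_place (F := F) (cl0_closed _)
    (k := t) (a := (kd P (w 2)).U / (kd P (w 2)).V) ht (div_mem hUF hVF)
  -- the data over `M`
  let y' : M := ⟨w 2, hFM (y_mem w)⟩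
  let l' : M := ⟨l, hFM hl⟩
  let a0 : M := ⟨(kd P (w 2)).U / (kd P (w 2)).V, hFM (div_mem hUF hVF)⟩
  let D' : KD M := kd P y'
  let f : M →+* N := (M.val : M →+* N)
  have hD : D'.map f = kd P (w 2) := map_kd P M.val y'
  -- the data over the valuation ring
  let cst : M →+* Pl.V := (algebraMap M N).codRestrict Pl.V Pl.mem
  have hcst : Pl.p.comp cst = RingHom.id M := by
    ext x
    exact congrArg Subtype.val (Pl.const x)
  let sub : Pl.V →+* N := Pl.V.subtype
  have hsub : sub.comp cst = f := rfl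
  have hinj : Function.Injective sub := Subtype.val_injective
  let DV : KD Pl.V := D'.map cst
  have hDV : DV.map sub = kd P (w 2) := hD
  have hDp : DV.map Pl.p = D' := by
    have h1 : ∀ x : M, Pl.p (cst x) = x := fun x => RingHom.congr_fun hcst x
    change KD.mk _ _ _ _ _ _ _ _ = D'
    simp only [DV, KD.map, h1]
  obtain ⟨htV, htval⟩ := hval
  let tV : Pl.V := ⟨t, htV⟩
  have htp : Pl.p tV = a0 := htval
  let GV : Fin 4 → Pl.V := DV.gam 1 tV
  have hGV : (fun i => sub (GV i)) = (kd P (w 2)).gam 1 t := by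
    have h1 := DV.map_gam sub 1 tV
    rw [hDV, map_one] at h1
    exact h1
  have hGp : (fun i => Pl.p (GV i)) = D'.gam 1 a0 := by
    have h1 := DV.map_gam Pl.p 1 tV
    rw [hDp, map_one, htp] at h1
    exact h1
  -- parameters
  have hU' : D'.U ≠ 0 := by
    intro h1
    apply hU0
    have h2 : f D'.U = (kd P (w 2)).U := congrArg KD.U hD
    rw [← h2, h1, map_zero]
  have hV' : D'.V ≠ 0 := by
    intro h1
    apply hV0
    have h2 : f D'.V = (kd P (w 2)).V := congrArg KD.V hD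
    rw [← h2, h1, map_zero]
  have ha0 : D'.V * a0 = D'.U := by
    apply f.injective
    rw [map_mul]
    have h2 : f D'.U = (kd P (w 2)).U := congrArg KD.U hD
    have h3 : f D'.V = (kd P (w 2)).V := congrArg KD.V hD
    have h4 : f a0 = (kd P (w 2)).U / (kd P (w 2)).V := rfl
    rw [h2, h3, h4, mul_div_cancel₀ _ hV0]
  have hκ : D'.m - l' * D'.e ≠ 0 := by
    intro h1
    apply hk
    have h2 : f D'.m = (kd P (w 2)).m := congrArg KD.m hD
    have h3 : f D'.e = (kd P (w 2)).e := congrArg KD.e hD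
    have h4 : f l' = l := rfl
    rw [← h2, ← h3, ← h4, ← map_mul, ← map_sub, h1, map_zero]
  have hyt : Transcendental ℂ (w 2) := (h.gen.ind_yk h0).transcendental 0
  have hp : D'.a + D'.c ≠ 0 := by
    intro h1
    have h2 : (2 * w 2 + algebraMap ℂ N P.Q0) + (2 * w 2 + algebraMap ℂ N P.Q1) = 0 := by
      have h3 : f (D'.a + D'.c) = (kd P (w 2)).a + (kd P (w 2)).c := by
        rw [map_add]
        have h4 : f D'.a = (kd P (w 2)).a := congrArg KD.a hD
        have h5 : f D'.c = (kd P (w 2)).c := congrArg KD.c hD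
        rw [h4, h5]
      rw [h1, map_zero] at h3
      exact h3.symm
    apply hyt
    refine ⟨C 4 * X + C (P.Q0 + P.Q1), ?_, ?_⟩
    · intro h3
      have h4 := congrArg (fun q => q.coeff 1) h3
      simp at h4
    · rw [map_add, map_mul, aeval_C, aeval_C, aeval_X, map_add, map_ofNat]
      linear_combination h2
  have hm : D'.a - D'.c ≠ 0 := by
    intro h1
    apply hQ
    apply (algebraMap ℂ M).injective
    have h2 : (2 * y' + algebraMap ℂ M P.Q0) - (2 * y' + algebraMap ℂ M P.Q1) = 0 := h1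
    linear_combination h2
  -- the second vector
  have hG3 : (kd P (w 2)).gam 1 t 3 ≠ 0 := by
    intro h1
    have h2 : sub (GV 3) = (kd P (w 2)).gam 1 t 3 := congrFun hGV 3
    rw [h1] at h2
    have h3 : GV 3 = 0 := hinj (by rw [h2, map_zero])
    have h4 : Pl.p (GV 3) = D'.gam 1 a0 3 := congrFun hGp 3
    rw [h3, map_zero] at h4
    have h5 : D'.gam 1 a0 3 = (D'.a + D'.c) * D'.U := by
      change 1 ^ 2 * (D'.a * D'.U * 1 + D'.c * D'.V * a0) = _
      linear_combination D'.c * ha0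
    rw [h5] at h4
    exact mul_ne_zero hp hU' h4.symm
  obtain ⟨μ, hμ⟩ : ∃ μ, μ = vec w 3 / (kd P (w 2)).gam 1 t 3 := ⟨_, rfl⟩
  obtain ⟨g, hg⟩ : ∃ g, g = (kd P (w 2)).gam 1 t := ⟨_, rfl⟩
  obtain ⟨u, hu⟩ : ∃ u : Fin 4 → N, u = fun i => vec w i - μ * g i := ⟨_, rfl⟩
  have hu3 : u 3 = 0 := by
    rw [hu]
    change vec w 3 - μ * g 3 = 0
    rw [hμ, hg, div_mul_cancel₀ _ hG3, sub_self]
  have hu0 : u ≠ 0 := by
    intro h1
    apply hL0
    have h2 : vec w = fun i => μ * g i := by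
      funext i
      have h3 := congrFun h1 i
      rw [hu] at h3
      change vec w i - μ * g i = 0 at h3
      exact sub_eq_zero.1 h3
    rw [h2]
    have h4 : (kd P (w 2)).L (fun i => μ * g i) = μ * (kd P (w 2)).L g := by
      unfold KD.L
      ring
    rw [h4, hg, KD.L_gam, mul_zero]
  obtain ⟨s, hs0, hsV, i₀, hi₀⟩ := exists_scale Pl.V hu0
  let v : Fin 4 → Pl.V := fun i => ⟨s * u i, hsV i⟩
  have hv : (fun i => sub (v i)) = fun i => s * u i := rfl
  have hline : ∀ α β : N, (kd P (w 2)).Kf l (KD.lc α g β (fun i => s * u i)) = 0 := by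
    intro α β
    have h1 := h.line (β * s) (α - β * s * μ)
    rw [← h1]
    congr 1
    funext i
    simp only [KD.lc, hu, ← hg]
    ring
  obtain ⟨-, e1, e2, e3⟩ := coeffs hline
  -- reduction
  have r1 : K21 D' l' (D'.gam 1 a0) (fun i => Pl.p (v i)) = 0 := by
    have h1 : K21 DV (cst l') GV v = 0 := by
      apply hinj
      rw [map_K21, hDV, hGV, map_zero, ← hg]
      exact e1
    have h2 := congrArg Pl.p h1
    rw [map_K21, hDp, hGp, map_zero] at h2
    have h3 : Pl.p (cst l') = l' := RingHom.congr_fun hcst l'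
    rw [h3] at h2
    exact h2
  have r2 : K21 D' l' (fun i => Pl.p (v i)) (D'.gam 1 a0) = 0 := by
    have h1 : K21 DV (cst l') v GV = 0 := by
      apply hinj
      rw [map_K21, hDV, hGV, map_zero, ← hg]
      exact e2
    have h2 := congrArg Pl.p h1
    rw [map_K21, hDp, hGp, map_zero] at h2
    have h3 : Pl.p (cst l') = l' := RingHom.congr_fun hcst l'
    rw [h3] at h2
    exact h2
  have r3 : D'.Kf l' (fun i => Pl.p (v i)) = 0 := by
    have h1 : DV.Kf (cst l') v = 0 := by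
      apply hinj
      rw [map_Kf, hDV, map_zero]
      exact e3
    have h2 := congrArg Pl.p h1
    rw [map_Kf, hDp, map_zero] at h2
    have h3 : Pl.p (cst l') = l' := RingHom.congr_fun hcst l'
    rw [h3] at h2
    exact h2
  have hv3 : Pl.p (v 3) = 0 := by
    have h1 : v 3 = 0 := by
      apply hinj
      change s * u 3 = 0
      rw [hu3, mul_zero]
    rw [h1, map_zero]
  have hz := no_line hU' hV' ha0 hκ hp hm hv3 r1 r2 r3
  have h1 := congrFun hz i₀
  have h2 : v i₀ = 1 := Subtype.ext hi₀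
  rw [h2, map_one] at h1
  exact one_ne_zero h1

/-- **The parameter `l` of a chord and `y` are independent.** -/
theorem ind_ly (hLI : LinInd P N) (hQ : P.Q0 ≠ P.Q1) (h0 : P.P0 ≠ 0)
    (h : IsChord P l t w w') : AlgebraicIndependent ℂ ![l, w 2] := by
  have hyt : Transcendental ℂ (w 2) := (h.gen.ind_yk h0).transcendental 0
  have h1 := l_notMem hLI hQ h0 h
  rw [mem_cl0] at h1
  exact pair_swap ((pair_iff' (w 2) l).2 ⟨hyt, h1⟩)

end ind

end Vale.Agent.P297.H251.Z2
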