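import Vale.Agent.P297.H251.Z2.LinInd

/-!
The general numerical Godeaux surface with torsion of order two: the roots of the form `g9` give
chords.
-/

set_option linter.unusedSectionVars false
set_option linter.unusedVariables false
set_option linter.style.haveILetI false

open IntermediateField Polynomial

namespace Vale.Agent.P297.H251.Z2

open Vale.Agent.P297 Vale.Agent.P297.Gen
open Vale.Agent.P297.H160.Z2Irr Vale.Agent.P297.H279.K2 Vale.Agent.P297.H288.K2

variable {N : Type} [Field N] [Algebra ℂ N] {P : Par} {w w' : Fin 5 → N} {t : N}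

/-- **The root `t` of `g9` with `C1 γ x ≠ 0` gives a line of a cubic surface of the pencil.** -/
theorem line_of_g9 (he : (kd P (w 2)).e ≠ 0) (hw : GenS P w)
    (hg : (kd P (w 2)).g9 (vec w) ((kd P (w 2)).gam 1 t) = 0)
    (hC : (kd P (w 2)).C1 ((kd P (w 2)).gam 1 t) (vec w) ≠ 0) :
    ∃ l : N, ∀ α β : N,
      (kd P (w 2)).Kf l (KD.lc α (vec w) β ((kd P (w 2)).gam 1 t)) = 0 := by
  set D := kd P (w 2) with hD
  set x := vec w with hx
  set g := D.gam 1 t with hgm
  have hQx : D.Q x = 0 := Q_vec hw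
  have hCx : D.Cf x = 0 := Cf_vec hw
  have hLg : D.L g = 0 := D.L_gam 1 t
  have hCg : D.Cf g = 0 := D.Cf_gam 1 t
  obtain ⟨l, hl⟩ : ∃ l, l = (D.m - D.L x * D.Q g / D.C1 g x) / D.e := ⟨_, rfl⟩
  have h1 : (D.m - l * D.e) * D.C1 g x = D.L x * D.Q g := by
    rw [hl, div_mul_cancel₀ _ he]
    field_simp
    ring
  have h2 : (D.m - l * D.e) * D.C1 x g = D.L x * D.b x g := by
    apply mul_right_cancel₀ hC
    unfold KD.g9 at hg
    linear_combination D.C1 x g * h1 - D.L x * hg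
  refine ⟨l, fun α β => ?_⟩
  apply mul_left_cancel₀ he
  rw [D.e_mul_Kf, D.Cf_lc, D.L_lc, D.Q_lc, hQx, hCx, hLg, hCg]
  linear_combination α ^ 2 * β * h2 + α * β ^ 2 * h1

/-- **The root `t` of `g9` gives a chord.** -/
theorem chord_of_g9 (he : (kd P (w 2)).e ≠ 0) (hw : GenS P w)
    (hg : (kd P (w 2)).g9 (vec w) ((kd P (w 2)).gam 1 t) = 0)
    (hC : (kd P (w 2)).C1 ((kd P (w 2)).gam 1 t) (vec w) ≠ 0) (hw' : GenS P w')
    (hy : w' 2 = w 2) {c : N} (hc : c ≠ 0)
    (hz : (kd P (w 2)).zz (vec w) ((kd P (w 2)).gam 1 t) = fun i => c * vec w' i) :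
    ∃ l, IsChord P l t w w' := by
  obtain ⟨l, hl⟩ := line_of_g9 he hw hg hC
  exact ⟨l, hw, hw', hy, hl, c, hc, hz⟩

end Vale.Agent.P297.H251.Z2
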