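import Vale.Agent.P297.H251.Z2.Ind
import Vale.Agent.P297.H160.Z2GI

/-!
The general numerical Godeaux surface with torsion of order two: `1, k, σ, τ` are linearly
independent over the algebraic closure of `ℂ(y)`.
-/

set_option linter.unusedSectionVars false
set_option linter.unusedVariables false
set_option linter.style.haveILetI false
set_option linter.unusedSimpArgs false

open IntermediateField Polynomial

namespace Vale.Agent.P297.H251.Z2

open Vale.Agent.P297 Vale.Agent.P297.Gen
open Vale.Agent.P297.H160.Z2Irr Vale.Agent.P297.H279.K2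

section

variable {N : Type} [Field N] [Algebra ℂ N] {P : Par}

/-- The quartic has degree four. -/
theorem rQ_deg (P : Par) {L : Type} [Field L] [Algebra ℂ L] {k : L} (hk : k ≠ 0) (y : L) :
    (rQ P k y).natDegree = 4 := by
  apply le_antisymm (rQ_natDegree P k y)
  apply le_natDegree_of_ne_zero
  obtain ⟨h4, -⟩ := quartic_coeff (k ^ 4)
    (q3 (fU P y) (fV P y) (fa P y) (fc P y) (fe P y) (fm P y) (algebraMap ℂ L P.P0)
    (algebraMap ℂ L P.P2) k)
    (q2 (fU P y) (fV P y) (fa P y) (fc P y) (fe P y) (fm P y) (algebraMap ℂ L P.P0)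
    (algebraMap ℂ L P.P2) k)
    (q1 (fU P y) (fV P y) (fa P y) (fc P y) (fe P y) (fm P y) (algebraMap ℂ L P.P0)
    (algebraMap ℂ L P.P2) k) (fg P y ^ 2)
  have h5 : (rQ P k y).coeff 4 = k ^ 4 := h4
  rw [h5]
  exact pow_ne_zero 4 hk

/-- No polynomial of degree at most two over `M(k)` vanishes at `x`. -/
theorem no_quad [IsAlgClosed N] (h0 : P.P0 ≠ 0) (h2 : P.P2 ≠ 0) {M : IntermediateField ℂ N}
    (hM : ∀ u, IsAlgebraic M u → u ∈ M) {y k x : N} (hyt : Transcendental ℂ y) (hy : y ∈ M)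
    (hk : k ∉ M) (hx : fQ P x k y = 0) {g0 g1 g2 : N}
    (m0 : g0 ∈ IntermediateField.adjoin M {k}) (m1 : g1 ∈ IntermediateField.adjoin M {k})
    (m2 : g2 ∈ IntermediateField.adjoin M {k}) (h : g2 * x ^ 2 + g1 * x + g0 = 0) : g2 = 0 := by
  have hkL : k ∈ IntermediateField.adjoin M {k} := IntermediateField.mem_adjoin_simple_self M k
  have hae : ∀ r : M[X], ((aeval (⟨k, hkL⟩ : IntermediateField.adjoin M {k}) r :
      IntermediateField.adjoin M {k}) : N) = aeval k r := by
    intro r
    exact (aeval_algebraMap_apply N (⟨k, hkL⟩ : IntermediateField.adjoin M {k}) r).symm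
  haveI h4 : IsScalarTower ℂ M (IntermediateField.adjoin M {k}) :=
    IsScalarTower.of_algebraMap_eq (fun c => rfl)
  haveI h5 : IsScalarTower ℂ (IntermediateField.adjoin M {k}) N :=
    IsScalarTower.of_algebraMap_eq (fun c => rfl)
  let yM : M := ⟨y, hy⟩
  have hkt : Transcendental M (⟨k, hkL⟩ : IntermediateField.adjoin M {k}) := by
    intro h
    apply hk
    apply hM
    obtain ⟨p, hp, hp'⟩ := h
    refine ⟨p, hp, ?_⟩
    rw [← hae, hp']
    rfl
  have hgen : ∀ z : IntermediateField.adjoin M {k}, ∃ r s : M[X],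
      z = aeval (⟨k, hkL⟩ : IntermediateField.adjoin M {k}) r /
        aeval (⟨k, hkL⟩ : IntermediateField.adjoin M {k}) s := by
    intro z
    obtain ⟨r, s, hrs⟩ := (IntermediateField.mem_adjoin_simple_iff M (z : N)).1 z.2
    refine ⟨r, s, ?_⟩
    apply Subtype.ext
    rw [hrs, IntermediateField.coe_div, hae, hae]
  have hfg : fg P yM ≠ 0 := by
    intro h
    have h4 : algebraMap M N (fg P yM) = fg P (algebraMap M N yM) :=
      map_fg P (IsScalarTower.toAlgHom ℂ M N) yM
    rw [h, map_zero] at h4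
    exact fg_ne' hyt h4.symm
  have h33 : c33 (fU P yM) (fV P yM) (fa P yM) (fc P yM) (fe P yM) (fm P yM)
      (algebraMap ℂ M P.P0) (algebraMap ℂ M P.P2) ≠ 0 := by
    intro h
    apply c33_ne (P := P) hyt
    obtain ⟨e1, e2, e3, e4, e5, e6⟩ := algebraMap_coeffs (M := M) (L := N) (P := P) yM
    have hyM : algebraMap M N yM = y := rfl
    rw [← hyM, ← e1, ← e2, ← e3, ← e4, ← e5, ← e6, IsScalarTower.algebraMap_apply ℂ M N P.P0,
      IsScalarTower.algebraMap_apply ℂ M N P.P2]
    have h5 := congrArg (algebraMap M N) h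
    unfold c33 at h5 ⊢
    simpa only [map_add, map_sub, map_mul, map_pow, map_neg, map_ofNat, map_zero] using h5
  have hirr : Irreducible (rQ P (⟨k, hkL⟩ : IntermediateField.adjoin M {k})
      (algebraMap M (IntermediateField.adjoin M {k}) yM)) := irr_rQ h0 h2 hfg h33 hkt hgen
  have hroot : aeval x (rQ P (⟨k, hkL⟩ : IntermediateField.adjoin M {k})
      (algebraMap M (IntermediateField.adjoin M {k}) yM)) = 0 := by
    have h6 := map_rQ P (IsScalarTower.toAlgHom ℂ (IntermediateField.adjoin M {k}) N)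
      (⟨k, hkL⟩ : IntermediateField.adjoin M {k})
      (algebraMap M (IntermediateField.adjoin M {k}) yM)
    have h7 : aeval x (rQ P (⟨k, hkL⟩ : IntermediateField.adjoin M {k})
        (algebraMap M (IntermediateField.adjoin M {k}) yM)) =
        ((rQ P (⟨k, hkL⟩ : IntermediateField.adjoin M {k})
        (algebraMap M (IntermediateField.adjoin M {k}) yM)).map
          ((IsScalarTower.toAlgHom ℂ (IntermediateField.adjoin M {k}) N :
            IntermediateField.adjoin M {k} →ₐ[ℂ] N) : IntermediateField.adjoin M {k} →+* N)).eval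
              x := by
      rw [aeval_def, eval₂_eq_eval_map]
      rfl
    rw [h7, h6, eval_rQ]
    exact hx
  by_contra hg
  let G : (IntermediateField.adjoin M {k})[X] := C ⟨g2, m2⟩ * X ^ 2 + C ⟨g1, m1⟩ * X + C ⟨g0, m0⟩
  have hGx : aeval x G = 0 := by
    simp only [G, map_add, map_mul, map_pow, aeval_C, aeval_X]
    exact h
  have hdvd : rQ P (⟨k, hkL⟩ : IntermediateField.adjoin M {k})
      (algebraMap M (IntermediateField.adjoin M {k}) yM) ∣ G := by
    have h8 := minpoly.dvd (IntermediateField.adjoin M {k}) x hGx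
    have h9 := minpoly.eq_of_irreducible hirr hroot
    rw [← h9] at h8
    exact (dvd_mul_right _ _).trans h8
  have hG0 : G ≠ 0 := by
    intro h8
    have h9 := congrArg (fun q => coeff q 2) h8
    simp only [G, coeff_add, coeff_C_mul, coeff_X_pow, coeff_X, coeff_C, coeff_zero] at h9
    norm_num at h9
    exact hg (congrArg Subtype.val h9)
  have hdeg : G.natDegree ≤ 2 := by
    simp only [G]
    compute_degree
  have h10 := natDegree_le_of_dvd hdvd hG0
  rw [rQ_deg] at h10
  · omega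
  · intro h11
    apply hk
    have h12 : k = 0 := congrArg Subtype.val h11
    rw [h12]
    exact zero_mem M

/-- **(LI)** -/
theorem linInd [IsAlgClosed N] (h0 : P.P0 ≠ 0) (h2 : P.P2 ≠ 0) : LinInd P N := by
  intro w h c hc hsum
  have hyk := h.ind_yk h0
  have hyt : Transcendental ℂ (w 2) := hyk.transcendental 0
  have hkF : w 1 ∉ cl0 {w 2} := by
    intro h1
    exact ((pair_iff' (w 2) (w 1)).1 hyk).2 (mem_cl0.1 h1)
  have hyF : w 2 ∈ cl0 {w 2} := y_mem w
  set F := cl0 {w 2} with hF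
  -- the relation multiplied by the denominator
  have hS := numS_eq P h.e1 h.e2
  have hT := numT_eq P h.e1 h.e2
  have hsum' : c 0 + c 1 * w 1 + c 2 * w 3 + c 3 * w 4 = 0 := by
    rw [Fin.sum_univ_four] at hsum
    simp only [vec, Matrix.cons_val_zero, Matrix.cons_val_one, Matrix.cons_val] at hsum
    linear_combination hsum
  have hrel : (c 0 + c 1 * w 1) * (w 0 * fD P (w 0) (w 1) (w 2)) +
      c 2 * numS P (w 0) (w 1) (w 2) + c 3 * numT P (w 0) (w 1) (w 2) = 0 := by
    rw [← hS, ← hT]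
    linear_combination (w 0 * fD P (w 0) (w 1) (w 2)) * hsum'
  -- memberships
  have hFL : ∀ z ∈ F, z ∈ IntermediateField.adjoin F {w 1} := fun z hz =>
    (IntermediateField.adjoin F {w 1}).algebraMap_mem ⟨z, hz⟩
  have hkL : w 1 ∈ IntermediateField.adjoin F {w 1} :=
    IntermediateField.mem_adjoin_simple_self F (w 1)
  have hU : fU P (w 2) ∈ F := by
    have h1 : fU P (w 2) = F.val (fU P (⟨w 2, hyF⟩ : F)) := by
      rw [map_fU]
      rfl
    rw [h1]
    exact Subtype.property _
  have hV : fV P (w 2) ∈ F := by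
    have h1 : fV P (w 2) = F.val (fV P (⟨w 2, hyF⟩ : F)) := by
      rw [map_fV]
      rfl
    rw [h1]
    exact Subtype.property _
  have ha : fa P (w 2) ∈ F := by
    have h1 : fa P (w 2) = F.val (fa P (⟨w 2, hyF⟩ : F)) := by
      rw [map_fa]
      rfl
    rw [h1]
    exact Subtype.property _
  have hcc : fc P (w 2) ∈ F := by
    have h1 : fc P (w 2) = F.val (fc P (⟨w 2, hyF⟩ : F)) := by
      rw [map_fc]
      rfl
    rw [h1]
    exact Subtype.property _
  have hA : algebraMap ℂ N P.P0 / fU P (w 2) ∈ F := div_mem (F.algebraMap_mem _) hU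
  have hB : algebraMap ℂ N P.P2 / fV P (w 2) ∈ F := div_mem (F.algebraMap_mem _) hV
  have hf2 : f2 P (w 2) ∈ F := by
    have h1 : fe P (w 2) ∈ F := by
      have h1 : fe P (w 2) = F.val (fe P (⟨w 2, hyF⟩ : F)) := by
        rw [map_fe]
        rfl
      rw [h1]
      exact Subtype.property _
    exact add_mem (add_mem h1 (mul_mem hB (pow_mem hU 2))) (mul_mem hA (pow_mem hV 2))
  have hfT : fT P (w 1) (w 2) ∈ IntermediateField.adjoin F {w 1} :=
    add_mem hkL (mul_mem (sub_mem hkL (one_mem _)) (sub_mem (hFL _ hA) (mul_mem (hFL _ hB) hkL)))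
  have hcL : ∀ i, c i ∈ IntermediateField.adjoin F {w 1} := fun i => hFL _ (hc i)
  have h01 : c 0 + c 1 * w 1 ∈ IntermediateField.adjoin F {w 1} :=
    add_mem (hcL 0) (mul_mem (hcL 1) hkL)
  have hac : fa P (w 2) * fU P (w 2) + fc P (w 2) * w 1 * fV P (w 2) ∈
      IntermediateField.adjoin F {w 1} :=
    add_mem (mul_mem (hFL _ ha) (hFL _ hU)) (mul_mem (mul_mem (hFL _ hcc) hkL) (hFL _ hV))
  have key := no_quad h0 h2 (M := F) (cl0_closed _) hyt hyF hkF h.zH
    (g2 := (c 0 + c 1 * w 1) * (w 1 * (w 1 - 1)) - (c 2 * w 1 ^ 2 + c 3) * fT P (w 1) (w 2))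
    (g1 := (c 0 + c 1 * w 1) * (fU P (w 2) ^ 2 - w 1 * fV P (w 2) ^ 2) +
      c 2 * (w 1 * (fa P (w 2) * fU P (w 2) + fc P (w 2) * w 1 * fV P (w 2)) +
        w 1 ^ 2 * f2 P (w 2) - fU P (w 2) ^ 2 * fT P (w 1) (w 2)) +
      c 3 * ((fa P (w 2) * fU P (w 2) + fc P (w 2) * w 1 * fV P (w 2)) +
        f2 P (w 2) - fV P (w 2) ^ 2 * fT P (w 1) (w 2)))
    (g0 := (c 2 * fU P (w 2) ^ 2 + c 3 * fV P (w 2) ^ 2) * f2 P (w 2))
    (mul_mem (add_mem (mul_mem (hcL 2) (pow_mem (hFL _ hU) 2))
      (mul_mem (hcL 3) (pow_mem (hFL _ hV) 2))) (hFL _ hf2))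
    (add_mem (add_mem (mul_mem h01 (sub_mem (pow_mem (hFL _ hU) 2)
      (mul_mem hkL (pow_mem (hFL _ hV) 2)))) (mul_mem (hcL 2) (sub_mem (add_mem (mul_mem hkL hac)
        (mul_mem (pow_mem hkL 2) (hFL _ hf2))) (mul_mem (pow_mem (hFL _ hU) 2) hfT))))
        (mul_mem (hcL 3) (sub_mem (add_mem hac (hFL _ hf2))
          (mul_mem (pow_mem (hFL _ hV) 2) hfT))))
    (sub_mem (mul_mem h01 (mul_mem hkL (sub_mem hkL (one_mem _))))
      (mul_mem (add_mem (mul_mem (hcL 2) (pow_mem hkL 2)) (hcL 3)) hfT)) (by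
      rw [← hrel]
      unfold fD numS numT
      ring)
  -- the polynomial in `k`
  let A : F := ⟨_, hA⟩
  let B : F := ⟨_, hB⟩
  let d : Fin 4 → F := fun i => ⟨c i, hc i⟩
  let p : F[X] := (C (d 0) + C (d 1) * X) * (X * (X - 1)) -
    (C (d 2) * X ^ 2 + C (d 3)) * (X + (X - 1) * (C A - C B * X))
  have hp : aeval (w 1) p = 0 := by
    rw [← key]
    simp only [p, map_add, map_sub, map_mul, map_pow, map_one, aeval_C, aeval_X]
    rfl
  have hp0 : p = 0 := by
    by_contra hne
    exact hkF (cl0_closed _ _ ⟨p, hne, hp⟩)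
  have hev : ∀ z : F, (d 0 + d 1 * z) * (z * (z - 1)) -
      (d 2 * z ^ 2 + d 3) * (z + (z - 1) * (A - B * z)) = 0 := by
    intro z
    have h1 := congrArg (eval z) hp0
    simpa only [p, eval_add, eval_sub, eval_mul, eval_pow, eval_one, eval_C, eval_X,
      eval_zero] using h1
  have hA0 : A ≠ 0 := by
    intro h1
    have h3 : algebraMap ℂ N P.P0 / fU P (w 2) = 0 := congrArg Subtype.val h1
    rw [div_eq_zero_iff] at h3
    rcases h3 with h3 | h3
    · exact h0 ((map_eq_zero (algebraMap ℂ N)).1 h3)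
    · exact h.nU h3
  have hd3 : d 3 = 0 := by
    have h1 := hev 0
    have h3 : d 3 * A = 0 := by linear_combination h1
    exact (mul_eq_zero.1 h3).resolve_right hA0
  have hd2 : d 2 = 0 := by
    have h1 := hev 1
    rw [hd3] at h1
    linear_combination -h1
  have e2 := hev 2
  have e3 := hev (-1)
  rw [hd3, hd2] at e2 e3
  haveI : CharZero F := charZero_of_injective_algebraMap (algebraMap ℂ F).injective
  have hd1 : d 1 = 0 := by
    have h1 : (6 : F) * d 1 = 0 := by linear_combination e2 - e3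
    exact (mul_eq_zero.1 h1).resolve_left (by norm_num)
  have hd0 : d 0 = 0 := by
    rw [hd1] at e3
    have h1 : (2 : F) * d 0 = 0 := by linear_combination e3
    exact (mul_eq_zero.1 h1).resolve_left two_ne_zero
  intro i
  fin_cases i
  · exact congrArg Subtype.val hd0
  · exact congrArg Subtype.val hd1
  · exact congrArg Subtype.val hd2
  · exact congrArg Subtype.val hd3

end

end Vale.Agent.P297.H251.Z2
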